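import Mathlib
import Vale.Agent.P194.Quot

namespace Vale.Agent.Results.P194.IndicableKernel

open Vale.Agent.P194

theorem result {p : ℕ} [Fact p.Prime] {R : Type*} [Ring R] [CharP R p] {G : Type*} [Group G]
    (N : Subgroup G) [N.Normal]
    (hN : ∀ H : Subgroup G, H ≤ N → H.FG → H ≠ ⊥ →
      ∃ χ : H →* Multiplicative (ZMod p), χ ≠ 1) :
    (IsDedekindFiniteMonoid (MonoidAlgebra R (G ⧸ N)) →
      IsDedekindFiniteMonoid (MonoidAlgebra R G)) ∧
    (IsStablyFiniteRing (MonoidAlgebra R (G ⧸ N)) →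
      IsStablyFiniteRing (MonoidAlgebra R G)) ∧
    (∀ (n : ℕ) (A : Matrix (Fin n) (Fin n) (MonoidAlgebra R G)),
      Function.Injective
        (A.map (MonoidAlgebra.mapDomainRingHom R (QuotientGroup.mk' N))).mulVec →
      Function.Injective A.mulVec) := by
  have hR : ∀ r : R, (p : ℕ) • r = 0 := by
    intro r
    rw [nsmul_eq_mul, CharP.cast_eq_zero, zero_mul]
  have h2 : ∀ (n : ℕ), (∀ A B : Matrix (Fin n) (Fin n) (MonoidAlgebra R (G ⧸ N)),
      A * B = 1 → B * A = 1) → ∀ A B : Matrix (Fin n) (Fin n) (MonoidAlgebra R G),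
      A * B = 1 → B * A = 1 := fun n hQ A B hAB => dedekind_matrix hR N hN hQ A B hAB
  refine ⟨?_, ?_, ?_⟩
  · intro hQ
    refine ⟨fun {a b} hab => ?_⟩
    have h3 := dedekind_matrix (ι := Fin 1) hR N hN (fun A B hAB => ?_)
      (Matrix.of fun _ _ => a) (Matrix.of fun _ _ => b) ?_
    · have h4 := congrFun (congrFun h3 0) 0
      simpa [Matrix.mul_apply] using h4
    · have h5 : A 0 0 * B 0 0 = 1 := by
        have := congrFun (congrFun hAB 0) 0
        simpa [Matrix.mul_apply] using this
      have h6 := hQ.mul_eq_one_symm h5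
      refine Matrix.ext fun i j => ?_
      rw [Subsingleton.elim i 0, Subsingleton.elim j 0]
      simpa [Matrix.mul_apply] using h6
    · refine Matrix.ext fun i j => ?_
      rw [Subsingleton.elim i 0, Subsingleton.elim j 0]
      simpa [Matrix.mul_apply] using hab
  · intro hQ
    refine ⟨fun n => ⟨fun {A B} hAB => ?_⟩⟩
    exact h2 n (fun A B h => (hQ.isDedekindFiniteMonoid n).mul_eq_one_symm h) A B hAB
  · intro n A hA v w hvw
    have h3 : A.mulVec (v - w) = 0 := by
      rw [Matrix.mulVec_sub, hvw, sub_self]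
    have h4 := conservative hR N hN A (fun u hu => hA (by rw [hu, Matrix.mulVec_zero])) _ h3
    exact sub_eq_zero.1 h4

end Vale.Agent.Results.P194.IndicableKernel
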