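import Mathlib
import Vale.Agent.P194.Quot
import Vale.Agent.P194.SoficMain
import Vale.Agent.P194.Surj
import Vale.Agent.P194.Local
import Vale.Agent.P194.FinIndex

namespace Vale.Agent.Results.P194.StableClass

open Vale.Agent.P194

universe u v

def Sofic (G : Type u) [Group G] : Prop :=
  ∀ (F : Finset G) (ε : ℝ), 0 < ε → ∃ (n : ℕ) (σ : G → Equiv.Perm (Fin n)), 0 < n ∧
    (∀ g ∈ F, ∀ h ∈ F,
      ((Finset.univ.filter fun x => σ (g * h) x ≠ σ g (σ h x)).card : ℝ) ≤ ε * n) ∧
    (∀ g ∈ F, g ≠ 1 → ((Finset.univ.filter fun x => σ g x = x).card : ℝ) ≤ ε * n)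

def Surjunctive (G : Type u) [Group G] : Prop :=
  ∀ (k : ℕ) (M : Finset G) (μ : (M → Fin k) → Fin k),
    Function.Injective (fun (x : G → Fin k) (g : G) => μ fun m => x (g * m)) →
    Function.Surjective (fun (x : G → Fin k) (g : G) => μ fun m => x (g * m))

inductive Tame (p : ℕ) : (G : Type u) → [Group G] → Prop
  | sofic (G : Type u) [Group G] (h : Sofic G) : Tame p G
  | surjunctive (G : Type u) [Group G] (h : Surjunctive G) : Tame p G
  | locallyEmbeddable (G : Type u) [Group G] (H : Finset G → Type u) [∀ F, Group (H F)]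
      (φ : ∀ F, G → H F) (hinj : ∀ F : Finset G, Set.InjOn (φ F) F)
      (hmul : ∀ F : Finset G, ∀ x ∈ F, ∀ y ∈ F, φ F (x * y) = φ F x * φ F y)
      (h : ∀ F, Tame p (H F)) : Tame p G
  | finiteIndex (G : Type u) [Group G] (H : Subgroup G) [H.FiniteIndex] (h : Tame p H) :
      Tame p G
  | extension (G : Type u) [Group G] (N : Subgroup G) [N.Normal]
      (hN : ∀ H : Subgroup G, H ≤ N → H.FG → H ≠ ⊥ →
        ∃ χ : H →* Multiplicative (ZMod p), χ ≠ 1)
      (h : Tame p (G ⧸ N)) : Tame p G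

theorem result (p : ℕ) [Fact p.Prime] (G : Type u) [Group G] (hG : Tame p G)
    (K : Type v) [Field K] [CharP K p] : IsStablyFiniteRing (MonoidAlgebra K G) := by
  induction hG with
  | sofic G h => exact ⟨fun n => ⟨fun {A B} hAB => sofic_dedekind h A B hAB⟩⟩
  | surjunctive G h =>
    exact ⟨fun n => ⟨fun {A B} hAB => surjunctive_dedekind (p := p) h A B hAB⟩⟩
  | locallyEmbeddable G H φ hinj hmul h ih =>
    exact ⟨fun n => ⟨fun {A B} hAB => local_dedekind (fun F => ⟨H F, inferInstance, φ F, hinj F,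
      hmul F, fun C D hCD => ((ih F).isDedekindFiniteMonoid n).mul_eq_one_symm hCD⟩) A B hAB⟩⟩
  | finiteIndex G H h ih =>
    haveI := ih
    haveI : Finite (G ⧸ H) := Subgroup.finite_quotient_of_finiteIndex
    exact ⟨fun n => ⟨fun {A B} hAB => finIndex_dedekind H A B hAB⟩⟩
  | extension G N hN h ih =>
    have hR : ∀ r : K, (p : ℕ) • r = 0 := by
      intro r
      rw [nsmul_eq_mul, CharP.cast_eq_zero, zero_mul]
    exact ⟨fun n => ⟨fun {A B} hAB => dedekind_matrix hR N hN
      (fun C D hCD => (ih.isDedekindFiniteMonoid n).mul_eq_one_symm hCD) A B hAB⟩⟩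

end Vale.Agent.Results.P194.StableClass
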